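import Crest.Agent.X212.Brk64.Chn

/-!
# Breaking on long necks: energies given by densities on a space with a time function
-/

namespace Crest.Agent.X212.Brk64

open Set Filter Topology MeasureTheory

variable {ν C X : Type*} [MeasurableSpace X] {μ : Measure X} {τ : X → ℝ} {f g : X → ℝ}
  {J S T : Set ℝ} {E s : ℝ}

variable (μ τ) in
/-- the integral over the times in `S` -/
noncomputable def eI (f : X → ℝ) (S : Set ℝ) : ℝ := ∫ x in τ ⁻¹' S, f x ∂μ

variable (μ τ) in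
/-- the energy seen from the time `s` -/
noncomputable def wI (f : X → ℝ) (J : Set ℝ) (s : ℝ) : ℝ :=
  ∫ x in τ ⁻¹' J, Real.exp (-|τ x - s|) * f x ∂μ

variable (μ τ) in
/-- a density of total mass `≤ E` over `J` -/
structure Gd (f : X → ℝ) (J : Set ℝ) (E : ℝ) : Prop where
  nn : ∀ x, 0 ≤ f x
  int : IntegrableOn f (τ ⁻¹' J) μ
  le : eI μ τ f J ≤ E

theorem exp_le_one' (a : ℝ) : Real.exp (-|a|) ≤ 1 := Real.exp_le_one_iff.2 (by simp)

theorem Gd.zero (hE : 0 ≤ E) : Gd μ τ 0 J E := ⟨fun _ => le_rfl, integrableOn_zero, by simpa [eI]⟩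

theorem Gd.e_mono (h : Gd μ τ f J E) (h1 : S ⊆ T) (h2 : T ⊆ J) : eI μ τ f S ≤ eI μ τ f T :=
  setIntegral_mono_set (h.int.mono_set (preimage_mono h2)) (Eventually.of_forall h.nn)
    (preimage_mono h1).eventuallyLE

theorem Gd.e_nn (h : Gd μ τ f J E) : 0 ≤ eI μ τ f S := integral_nonneg h.nn

theorem Gd.nonneg (h : Gd μ τ f J E) : 0 ≤ E := h.e_nn.trans h.le

theorem Gd.w_meas (h : Gd μ τ f J E) (hτ : Measurable τ) (s : ℝ) :
    AEStronglyMeasurable (fun x => Real.exp (-|τ x - s|) * f x) (μ.restrict (τ ⁻¹' J)) :=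
  (by fun_prop : Measurable fun x => Real.exp (-|τ x - s|)).aestronglyMeasurable.mul h.int.1

theorem Gd.w_bd (h : Gd μ τ f J E) (s : ℝ) (x : X) : ‖Real.exp (-|τ x - s|) * f x‖ ≤ f x := by
  rw [Real.norm_of_nonneg (mul_nonneg (Real.exp_pos _).le (h.nn x))]
  exact mul_le_of_le_one_left (h.nn x) (exp_le_one' _)

theorem Gd.w_int (h : Gd μ τ f J E) (hτ : Measurable τ) (s : ℝ) :
    IntegrableOn (fun x => Real.exp (-|τ x - s|) * f x) (τ ⁻¹' J) μ :=
  h.int.mono' (h.w_meas hτ s) (Eventually.of_forall (h.w_bd s))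

theorem Gd.cpt (h : Gd μ τ f J E) (hτ : Measurable τ) (hJ : IsClosed J) {ε : ℝ} (hε : 0 < ε) :
    IsCompact {s ∈ J | ε ≤ wI μ τ f J s} := by
  have h1 : Continuous (wI μ τ f J) := continuous_of_dominated (h.w_meas hτ)
    (fun s => Eventually.of_forall (h.w_bd s)) h.int (Eventually.of_forall fun x => by fun_prop)
  have h2 : Tendsto (wI μ τ f J) (cocompact ℝ) (𝓝 0) := by
    have : (cocompact ℝ).IsCountablyGenerated := by rw [cocompact_eq_atBot_atTop]; infer_instance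
    have := tendsto_integral_filter_of_dominated_convergence (l := cocompact ℝ)
      (μ := μ.restrict (τ ⁻¹' J)) (F := fun s x => Real.exp (-|τ x - s|) * f x) (f := fun _ => 0) f
      (Eventually.of_forall (h.w_meas hτ))
      (Eventually.of_forall fun s => Eventually.of_forall (h.w_bd s)) h.int
      (Eventually.of_forall fun x => by
        rw [← zero_mul (f x)]
        refine (Real.tendsto_exp_atBot.comp (tendsto_neg_atTop_atBot.comp ?_)).mul_const _
        exact tendsto_dist_left_cocompact_atTop (τ x))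
    rw [integral_zero] at this
    exact this
  obtain ⟨K, hK, h3⟩ := mem_cocompact.1 (h2.eventually (gt_mem_nhds hε))
  exact hK.of_isClosed_subset (hJ.inter (isClosed_le continuous_const h1)) fun s hs =>
    by_contra fun e => absurd (h3 e) (not_lt.2 hs.2)

theorem Gd.w_le (h : Gd μ τ f J E) (hτ : Measurable τ) (hS : MeasurableSet S) (h1 : S ⊆ J) {ρ : ℝ}
    (h2 : Ioo (s - ρ) (s + ρ) ⊆ S) : wI μ τ f J s ≤ eI μ τ f S + Real.exp (-ρ) * E := by
  have i1 := h.int.indicator (hτ hS)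
  calc _ ≤ ∫ x in τ ⁻¹' J, ((τ ⁻¹' S).indicator f x + Real.exp (-ρ) * f x) ∂μ := by
        refine integral_mono (h.w_int hτ s) (i1.add (h.int.const_mul _)) fun x => ?_
        have h0 := h.nn x
        by_cases hx : x ∈ τ ⁻¹' S
        · simp only [indicator_of_mem hx]
          nlinarith [exp_le_one' (τ x - s), Real.exp_pos (-ρ)]
        · simp only [indicator_of_notMem hx, zero_add]
          refine mul_le_mul_of_nonneg_right (Real.exp_le_exp.2 (neg_le_neg ?_)) h0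
          by_contra e
          rw [not_le, abs_lt] at e
          exact hx (h2 ⟨by linarith, by linarith⟩)
    _ ≤ _ := by
        rw [integral_add i1 (h.int.const_mul _), integral_const_mul, setIntegral_indicator (hτ hS),
          inter_eq_right.2 (preimage_mono h1)]
        exact add_le_add le_rfl (mul_le_mul_of_nonneg_left h.le (Real.exp_pos _).le)

theorem Gd.le_w (h : Gd μ τ f J E) (hτ : Measurable τ) {L : ℝ} (h1 : Ioo (s - L) (s + L) ⊆ J) :
    Real.exp (-L) * eI μ τ f (Ioo (s - L) (s + L)) ≤ wI μ τ f J s := by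
  rw [eI, ← integral_const_mul]
  refine (setIntegral_mono_on ((h.int.mono_set (preimage_mono h1)).const_mul _)
    ((h.w_int hτ s).mono_set (preimage_mono h1)) (hτ measurableSet_Ioo) fun x hx => ?_).trans
    (setIntegral_mono_set (h.w_int hτ s) (Eventually.of_forall fun x =>
      mul_nonneg (Real.exp_pos _).le (h.nn x)) (preimage_mono h1).eventuallyLE)
  exact mul_le_mul_of_nonneg_right (Real.exp_le_exp.2 (neg_le_neg
    (abs_le.2 ⟨by linarith [hx.1], by linarith [hx.2]⟩))) (h.nn x)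

theorem Nk.icc_sub (N : Nk ν) {R r : ℝ} {n : ν} (h : s ∈ N.J (R + r) n) :
    Icc (s - r) (s + r) ⊆ N.J R n := fun _ hx =>
  N.lip h (abs_le.2 ⟨by linarith [hx.1], by linarith [hx.2]⟩)

theorem ev_exp {δ : ℝ} (hδ : 0 < δ) (E : ℝ) : ∀ᶠ R in atTop, Real.exp (-R) * E < δ := by
  have := Real.tendsto_exp_neg_atTop_nhds_zero.mul_const E
  rw [zero_mul] at this
  exact this.eventually (gt_mem_nhds hδ)

/-- a statement about deep times with small energy follows from its form for ultrafilters -/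
theorem Nk.small_of (N : Nk ν) {𝒰 : Ultrafilter ν} {win : ν → ℝ → ℝ} {P : ν → ℝ → Prop}
    (h : ∀ 𝒱 : Ultrafilter (ν × ℝ), Tendsto (Prod.fst : ν × ℝ → ν) 𝒱 𝒰 →
      (∀ R, ∀ᶠ p : ν × ℝ in 𝒱, p.2 ∈ N.J R p.1) →
      (∀ ε > 0, ∀ᶠ p : ν × ℝ in 𝒱, win p.1 p.2 < ε) → ∀ᶠ p : ν × ℝ in 𝒱, P p.1 p.2) :
    ∃ ε > 0, ∃ R, ∀ᶠ n in 𝒰, ∀ s ∈ N.J R n, win n s < ε → P n s := by
  by_contra hc
  let A : ℕ → Set (ν × ℝ) := fun m =>
    {p | p.2 ∈ N.J m p.1 ∧ win p.1 p.2 < 1 / ((m : ℝ) + 1) ∧ ¬P p.1 p.2}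
  have anti : Antitone A := fun m m' hm p hp => ⟨N.anti (Nat.cast_le.2 hm) _ hp.1,
    hp.2.1.trans_le (Nat.one_div_le_one_div hm), hp.2.2⟩
  have ne : ∀ m, (comap Prod.fst (𝒰 : Filter ν) ⊓ 𝓟 (A m)).NeBot := fun m => by
    refine inf_principal_neBot_iff.2 fun U ⟨V, hV, hU⟩ => ?_
    obtain ⟨n, h1, h2⟩ := ((Ultrafilter.eventually_not.2 fun e =>
      hc ⟨_, Nat.one_div_pos_of_nat (n := m), m, e⟩).and hV).exists
    push Not at h1
    obtain ⟨s, h3⟩ := h1
    exact ⟨(n, s), hU h2, h3⟩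
  have : Nonempty (ν × ℝ) := (ne 0).nonempty
  have := iInf_neBot_of_directed (Antitone.directed_ge (f := fun m =>
    comap Prod.fst (𝒰 : Filter ν) ⊓ 𝓟 (A m))
    fun _ _ hm => inf_le_inf_left _ (principal_mono.2 (anti hm))) ne
  obtain ⟨𝒱, h𝒱⟩ := Ultrafilter.exists_le (⨅ m, comap Prod.fst (𝒰 : Filter ν) ⊓ 𝓟 (A m))
  have h1 := fun m => le_inf_iff.1 (h𝒱.trans (iInf_le _ m))
  have h2 : ∀ m, ∀ᶠ p : ν × ℝ in 𝒱, p ∈ A m := fun m => le_principal_iff.1 (h1 m).2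
  obtain ⟨p, h3, h4⟩ := ((h 𝒱 (tendsto_iff_comap.2 (h1 0).1)
    (fun R => (h2 ⌈R⌉₊).mono fun p hp => N.anti (Nat.le_ceil R) _ hp.1) fun ε hε =>
      let ⟨m, hm⟩ := exists_nat_one_div_lt hε
      (h2 m).mono fun p hp => hp.2.1.trans hm).and (h2 0)).exists
  exact h4.2.2 h3

/-- **Broken trajectories**, for an energy density. -/
theorem Nk.break_en [Finite C] [Nonempty C] (N : Nk ν) {𝒰 : Ultrafilter ν} (hτ : Measurable τ)
    {f : ν → X → ℝ} {near : ν → ℝ → C → ℝ → Prop} (hf : ∀ᶠ n in 𝒰, Gd μ τ (f n) (N.J 0 n) E)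
    (mono : ∀ n s β η η', η ≤ η' → near n s β η → near n s β η')
    (iso : ∃ η > 0, ∃ R, ∀ᶠ n in 𝒰, ∀ s ∈ N.J R n, ∀ β, near n s β η →
      (∀ β', near n s β' η → β = β') ∧ ∀ᶠ s' in 𝓝 s, near n s' β η)
    (small : ∀ η > 0, ∀ 𝒱 : Ultrafilter (ν × ℝ), Tendsto (Prod.fst : ν × ℝ → ν) 𝒱 𝒰 →
      (∀ R, ∀ᶠ p : ν × ℝ in 𝒱, p.2 ∈ N.J R p.1) →
      (∀ L, Tendsto (fun p : ν × ℝ => eI μ τ (f p.1) (Ioo (p.2 - L) (p.2 + L))) 𝒱 (𝓝 0)) →
      ∀ᶠ p : ν × ℝ in 𝒱, ∃ β, near p.1 p.2 β η)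
    (dec : ∃ η > 0, ∀ δ > 0, ∀ L, ∃ R, ∀ᶠ n in 𝒰, ∀ s β,
      (∀ s' ∈ Icc (s - R) (s + R), near n s' β η) → eI μ τ (f n) (Ioo (s - L) (s + L)) ≤ δ) :
    ∃ (win : ν → ℝ → ℝ) (k : ℕ) (t : Fin k → ν → ℝ) (β : Fin (k + 1) → C),
      N.Cen 𝒰 win k t ∧ N.Chain 𝒰 near t β ∧
      ∀ i, ∃ ε > 0, ∃ L, ∀ᶠ n in 𝒰, ε ≤ eI μ τ (f n) (Ioo (t i n - L) (t i n + L)) := by
  classical
  have hE : 0 ≤ E := hf.exists.choose_spec.nonneg
  let win : ν → ℝ → ℝ := fun n => wI μ τ (if Gd μ τ (f n) (N.J 0 n) E then f n else 0) (N.J 0 n)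
  have hw : ∀ᶠ n in 𝒰, Gd μ τ (f n) (N.J 0 n) E ∧ win n = wI μ τ (f n) (N.J 0 n) :=
    hf.mono fun n hn => ⟨hn, by simp only [win, if_pos hn]⟩
  have hsel : N.Sel 𝒰 win := Or.inr fun n ε hε => by
    refine Gd.cpt (E := E) ?_ hτ (N.cl 0 n) hε
    split_ifs with h
    exacts [h, Gd.zero hE]
  have sub : ∀ {n s R}, s ∈ N.J (0 + R) n → Ioo (s - R) (s + R) ⊆ N.J 0 n := fun h =>
    Ioo_subset_Icc_self.trans (N.icc_sub h)
  have hn : N.Near 𝒰 win near := ⟨mono, fun η hη => N.small_of fun 𝒱 h1 h2 h3 => by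
    refine small η hη 𝒱 h1 h2 fun L => tendsto_order.2 ⟨fun a ha => ?_, fun a ha => ?_⟩
    · exact (h1.eventually hf).mono fun p hp => ha.trans_le hp.e_nn
    · filter_upwards [h1.eventually hw, h2 (0 + L), h3 _ (mul_pos (Real.exp_pos (-L)) ha)]
        with p a1 a2 a3
      rw [a1.2] at a3
      exact lt_of_mul_lt_mul_left ((a1.1.le_w hτ (sub a2)).trans_lt a3) (Real.exp_pos _).le, iso⟩
  have car : ∀ s, N.Deep 𝒰 s → ∀ ε > 0, (∀ᶠ n in 𝒰, ε ≤ win n (s n)) →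
      ∃ L, ∀ᶠ n in 𝒰, ε / 2 ≤ eI μ τ (f n) (Ioo (s n - L) (s n + L)) := fun s hs ε hε h => by
    obtain ⟨L, hL⟩ := (ev_exp (half_pos hε) E).exists
    refine ⟨L, ?_⟩
    filter_upwards [h, hw, hs (0 + L)] with n a1 a2 a3
    rw [a2.2] at a1
    linarith [a2.1.w_le hτ measurableSet_Ioo (sub a3) Subset.rfl]
  obtain ⟨η1, p1, H1⟩ := dec
  obtain ⟨η2, p2, R2, H2⟩ := iso
  obtain ⟨ε0, p0, R0, H0⟩ := hn.small _ (lt_min p1 p2)
  refine (N.break (en := fun n s t => eI μ τ (f n) (Ioc s t)) hE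
    (half_pos p0) (hf.mono fun n hn => ⟨fun s t t' u hs hu h2 h3 h4 => ?_, fun s t hs ht _ =>
      ⟨hn.e_nn, (hn.e_mono (Ioc_subset_Icc_self.trans ((N.oc 0 n).out hs ht)) Subset.rfl).trans
        hn.le⟩⟩) hsel hn fun s hs ⟨ε, hε, hc⟩ => ?_).elim fun k ⟨t, β, _, h1, h2⟩ =>
    ⟨win, k, t, β, h1, h2, fun i => let ⟨ε, hε, h⟩ := h1.carry i
      ⟨_, half_pos hε, car _ (h1.deep i) ε hε h⟩⟩
  · have h5 := Ioc_subset_Icc_self.trans ((N.oc 0 n).out hs hu)
    have h6 : Ioc s t ⊆ Ioc s u := Ioc_subset_Ioc_right (h3.trans h4)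
    have h7 : Ioc t' u ⊆ Ioc s u := Ioc_subset_Ioc_left (h2.trans h3)
    refine le_trans (le_of_eq ?_) (hn.e_mono (union_subset h6 h7) h5)
    simp only [eI, preimage_union]
    exact (setIntegral_union ((Ioc_disjoint_Ioc_of_le h3).preimage τ) (hτ measurableSet_Ioc)
      (hn.int.mono_set (preimage_mono (h6.trans h5)))
      (hn.int.mono_set (preimage_mono (h7.trans h5)))).symm
  · obtain ⟨L, hL⟩ := car s hs ε hε hc
    obtain ⟨R, hR⟩ := H1 (ε / 4) (by positivity) L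
    obtain ⟨ρ, hρ, h0⟩ := ((ev_exp (half_pos p0) E).and (eventually_ge_atTop |R|)).exists
    have a0 := abs_nonneg R
    have a1 := le_abs_self R
    refine ⟨ρ + |R|, by linarith, ?_⟩
    filter_upwards [hL, hR, H0, H2, hw, hs (0 + (ρ + |R|)), hs (max R0 R2 + R)]
      with n b1 b2 b3 b4 b5 b6 b7
    by_contra b8
    have c1 := N.icc_sub b7
    have c2 : ∀ s' ∈ Icc (s n - R) (s n + R), ∃ γ, near n s' γ (min η1 η2) := fun s' h' => by
      refine b3 s' (N.anti (le_max_left _ _) n (c1 h')) ?_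
      rw [b5.2]
      have := b5.1.w_le hτ (s := s') (ρ := ρ) measurableSet_Ioc
        (Ioc_subset_Icc_self.trans (N.icc_sub b6))
        fun x hx => ⟨by linarith [hx.1, h'.1], by linarith [hx.2, h'.2]⟩
      linarith [not_le.1 b8]
    have c3 := fun s' h' => b4 s' (N.anti (le_max_right _ _) n (c1 h'))
    obtain ⟨γ, hγ⟩ := one_of_cover (A := Icc (s n - R) (s n + R)) isPreconnected_Icc
      (fun s γ => near n s γ η2) (fun s' h' => (c2 s' h').imp fun _ => mono _ _ _ _ _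
        (min_le_right _ _)) (fun s' h' γ γ' h => (c3 s' h' γ h).1 γ') fun s' h' γ h => (c3 s' h' γ h).2
    have := b2 (s n) γ fun s' h' => by
      obtain ⟨γ', h''⟩ := c2 s' h'
      rw [(c3 s' h' γ (hγ s' h')).1 γ' (mono _ _ _ _ _ (min_le_right _ _) h'')]
      exact mono _ _ _ _ _ (min_le_left _ _) h''
    linarith

/-! ### integrals over the gaps -/

theorem int_exp_le {d : ℝ} (hd : 0 < d) (a b : ℝ) :
    ∫⁻ s in Icc a b, ENNReal.ofReal (Real.exp (-d * (s - a)) + Real.exp (-d * (b - s))) ≤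
      ENNReal.ofReal (2 / d) := by
  rcases lt_or_ge b a with h | h
  · simp [Icc_eq_empty_of_lt h]
  rw [← ofReal_integral_eq_lintegral_ofReal (Continuous.integrableOn_Icc (by fun_prop))
    (Eventually.of_forall fun _ => by positivity), integral_Icc_eq_integral_Ioc,
    ← intervalIntegral.integral_of_le h]
  refine ENNReal.ofReal_le_ofReal ?_
  rw [intervalIntegral.integral_eq_sub_of_hasDerivAt (f := fun s =>
    (Real.exp (-d * (b - s)) - Real.exp (-d * (s - a))) / d) (fun s _ => ?_)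
    (Continuous.intervalIntegrable (by fun_prop) _ _)]
  · rw [← sub_div]
    refine div_le_div_of_nonneg_right ?_ hd.le
    simp only [sub_self, mul_zero, Real.exp_zero]
    linarith [Real.exp_pos (-d * (b - a))]
  · have h1 := (((hasDerivAt_id s).const_sub b).const_mul (-d)).exp
    have h2 := (((hasDerivAt_id s).sub_const a).const_mul (-d)).exp
    refine ((h1.sub h2).div_const d).congr_deriv ?_
    simp only [id]
    field_simp
    ring

/-- bounds over compact intervals give a bound over a closed interval -/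
theorem lint_oc {F : X → ENNReal} {c : ENNReal} (hT : IsClosed T) (hc : T.OrdConnected)
    (h : ∀ a b, Icc a b ⊆ T → ∫⁻ x in τ ⁻¹' Icc a b, F x ∂μ ≤ c) : ∫⁻ x in τ ⁻¹' T, F x ∂μ ≤ c := by
  have e : τ ⁻¹' T = ⋃ m : ℕ, τ ⁻¹' (T ∩ Icc (-(m : ℝ)) m) := by
    ext x
    simp only [mem_iUnion, mem_preimage, mem_inter_iff, exists_and_left, mem_Icc, ← abs_le]
    exact ⟨fun h => ⟨h, _, Nat.le_ceil _⟩, fun h => h.1⟩
  rw [e, setLIntegral_iUnion_of_directed _ (Monotone.directed_le fun m m' hm => preimage_mono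
    (inter_subset_inter_right _ (Icc_subset_Icc (by simpa) (by simpa))))]
  refine iSup_le fun m => ?_
  rcases (T ∩ Icc (-(m : ℝ)) m).eq_empty_or_nonempty with h0 | h0
  · simp [h0]
  have := eq_Icc_of_connected_compact ⟨h0, (hc.inter ordConnected_Icc).isPreconnected⟩
    (isCompact_Icc.inter_left hT)
  rw [this]
  exact h _ _ (this ▸ inter_subset_left)

theorem Nk.gap_cl (N : Nk ν) {k : ℕ} (t : Fin k → ν → ℝ) (g : Fin (k + 1)) (R : ℝ) (n : ν) :
    IsClosed (N.Gap t g R n) := by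
  refine (N.cl R n).inter (?_ : IsClosed {s | ∀ i : Fin k, _})
  simp only [ofPred_forall, ofPred_and]
  exact isClosed_iInter fun i => (isClosed_iInter fun _ => isClosed_Ici).inter
    (isClosed_iInter fun _ => isClosed_le (by fun_prop) continuous_const)

theorem Nk.gap_lip (N : Nk ν) {k : ℕ} {t : Fin k → ν → ℝ} {g : Fin (k + 1)} {R r s' : ℝ} {n : ν}
    (h : s ∈ N.Gap t g (R + r) n) (h' : |s' - s| ≤ r) : s' ∈ N.Gap t g R n :=
  ⟨N.lip h.1 h', fun i => ⟨fun e => by linarith [(h.2 i).1 e, (abs_le.1 h').1],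
    fun e => by linarith [(h.2 i).2 e, (abs_le.1 h').2]⟩⟩

/-- away from the centres one is in a gap -/
theorem Nk.mem_gap (N : Nk ν) {k : ℕ} {t : Fin k → ν → ℝ} {R : ℝ} {n : ν}
    (ht : ∀ i j, i < j → t i n ≤ t j n) (h : s ∈ N.J R n)
    (h' : ∀ i, s ∉ Ioo (t i n - R) (t i n + R)) : ∃ g, s ∈ N.Gap t g R n := by
  classical
  have key : ∀ i, t i n + R ≤ s ∨ s + R ≤ t i n := fun i => by
    by_contra e
    push Not at e
    exact h' i ⟨by linarith [e.2], e.1⟩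
  by_cases h0 : ∃ i, s + R ≤ t i n
  · have h1 : (Finset.univ.filter fun i => s + R ≤ t i n).Nonempty :=
      h0.imp fun i h => by simpa using h
    have h2 := Finset.min'_mem _ h1
    refine ⟨(Finset.min' _ h1).castSucc, h, fun i => ⟨fun e => (key i).resolve_right fun e' =>
      absurd (Finset.min'_le _ i (by simpa using e')) (not_le.2 (Fin.castSucc_lt_castSucc_iff.1 e)),
      fun e => ?_⟩⟩
    rcases (Fin.castSucc_le_castSucc_iff.1 e).eq_or_lt with e | e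
    · exact e ▸ (Finset.mem_filter.1 h2).2
    · exact (Finset.mem_filter.1 h2).2.trans (ht _ _ e)
  · exact ⟨Fin.last k, h, fun i => ⟨fun _ => (key i).resolve_right fun e => h0 ⟨i, e⟩,
      fun e => absurd e (not_le.2 (Fin.castSucc_lt_last i))⟩⟩

/-- the integral over the neck is the sum of the integrals over the windows, up to the gaps -/
theorem Nk.int_split (N : Nk ν) (hτ : Measurable τ) {k : ℕ} {t : Fin k → ν → ℝ} {R δ : ℝ} {n : ν}
    (hR : 0 < R) (hδ : 0 ≤ δ) (ht : ∀ i j, i < j → t i n + R < t j n - R)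
    (hd : ∀ i, t i n ∈ N.J (R + R) n) (hm : AEStronglyMeasurable g (μ.restrict (τ ⁻¹' N.J R n)))
    (hw : ∀ i, IntegrableOn g (τ ⁻¹' Icc (t i n - R) (t i n + R)) μ)
    (hg : ∀ j, ∫⁻ x in τ ⁻¹' N.Gap t j R n, ‖g x‖ₑ ∂μ ≤ ENNReal.ofReal δ) :
    IntegrableOn g (τ ⁻¹' N.J R n) μ ∧
      |eI μ τ g (N.J R n) - ∑ i, eI μ τ g (Icc (t i n - R) (t i n + R))| ≤ (k + 1) * δ := by
  set W := ⋃ i, τ ⁻¹' Icc (t i n - R) (t i n + R)
  have h1 : W ⊆ τ ⁻¹' N.J R n := iUnion_subset fun i => preimage_mono (N.icc_sub (hd i))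
  have mW : MeasurableSet W := MeasurableSet.iUnion fun _ => hτ measurableSet_Icc
  have h2 : ∫⁻ x in τ ⁻¹' N.J R n \ W, ‖g x‖ₑ ∂μ ≤ ENNReal.ofReal ((k + 1) * δ) := by
    refine (lintegral_mono_set (t := ⋃ j, τ ⁻¹' N.Gap t j R n) fun x hx => mem_iUnion.2
      (N.mem_gap (fun i j e => by linarith [ht i j e]) hx.1 fun i e => hx.2 (mem_iUnion.2
        ⟨i, Ioo_subset_Icc_self e⟩))).trans ((lintegral_iUnion_le _ _).trans ?_)
    rw [tsum_fintype]
    refine (Finset.sum_le_card_nsmul _ _ _ fun j _ => hg j).trans (le_of_eq ?_)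
    rw [ENNReal.ofReal_mul (by positivity), ← Nat.cast_succ, ENNReal.ofReal_natCast]
    simp
  have h3 : IntegrableOn g (τ ⁻¹' N.J R n \ W) μ :=
    ⟨hm.mono_set sdiff_subset, h2.trans_lt ENNReal.ofReal_lt_top⟩
  have h4 : IntegrableOn g W μ := integrableOn_finite_iUnion.2 hw
  have h5 : IntegrableOn g (τ ⁻¹' N.J R n) μ := by
    rw [← sdiff_union_of_subset h1]; exact h3.union h4
  refine ⟨h5, ?_⟩
  have dj : ∀ i j, i < j → Disjoint (Icc (t i n - R) (t i n + R)) (Icc (t j n - R) (t j n + R)) :=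
    fun i j e => disjoint_left.2 fun _ a b => by linarith [ht i j e, a.2, b.1]
  have h6 : ∑ i, eI μ τ g (Icc (t i n - R) (t i n + R)) = ∫ x in W, g x ∂μ :=
    (integral_iUnion_fintype (fun _ => hτ measurableSet_Icc) (fun i j e =>
      Disjoint.preimage τ (e.lt_or_gt.elim (dj i j) fun e => (dj j i e).symm)) hw).symm
  rw [h6, eI, ← setIntegral_sdiff mW h5 h1, ← Real.norm_eq_abs]
  refine (norm_integral_le_lintegral_norm _).trans (ENNReal.toReal_le_of_le_ofReal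
    (by positivity) ?_)
  simpa only [ofReal_norm] using h2

/-- a cluster point of admissible values -/
theorem exists_clu {Z : Type*} [PseudoMetricSpace Z] [CompactSpace Z] {Q : ℕ → Z → Prop}
    (h : ∀ m, ∃ z, Q m z) : ∃ z0, ∀ δ > 0, ∀ m0, ∃ m, m0 ≤ m ∧ ∃ z, Q m z ∧ dist z0 z ≤ δ := by
  choose z hz using h
  obtain ⟨z0, h0⟩ := exists_clusterPt_of_compactSpace (map z atTop)
  refine ⟨z0, fun δ hδ m0 => ?_⟩
  obtain ⟨m, h1, h2⟩ := ((mapClusterPt_iff_frequently.1 h0 _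
    (Metric.closedBall_mem_nhds z0 hδ)).and_eventually
    (eventually_ge_atTop m0)).exists
  exact ⟨m, h2, _, hz m, Metric.mem_closedBall'.1 h1⟩

/-- a bounded piece of a closed interval is a compact interval -/
theorem icc_piece (hT : IsClosed T) (hc : T.OrdConnected) (m : ℝ) :
    ∃ a b, T ∩ Icc (-m) m = Icc a b := by
  rcases (T ∩ Icc (-m) m).eq_empty_or_nonempty with h0 | h0
  · exact ⟨1, 0, by rw [h0, Icc_eq_empty_of_lt one_pos]⟩
  · exact ⟨_, _, eq_Icc_of_connected_compact ⟨h0, (hc.inter ordConnected_Icc).isPreconnected⟩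
      (isCompact_Icc.inter_left hT)⟩

end Crest.Agent.X212.Brk64
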