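import Mathlib

/-!
# Concentration points of energy along an ultrafilter
-/

namespace Crest.Agent.X212.Brk64

open Set Filter Topology MeasureTheory

variable {ν X : Type*} [TopologicalSpace X]

/-- the points where at least `ε` of the energy `en n` concentrates along `𝒰` -/
def bub (𝒰 : Ultrafilter ν) (en : ν → Set X → ℝ) (ε : ℝ) : Set X :=
  {x | ∀ U, IsOpen U → x ∈ U → ∀ᶠ n in 𝒰, ε ≤ en n U}

theorem small_of_notMem {𝒰 : Ultrafilter ν} {en : ν → Set X → ℝ} {ε : ℝ} {x : X}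
    (hx : x ∉ bub 𝒰 en ε) : ∃ U, IsOpen U ∧ x ∈ U ∧ ∀ᶠ n in 𝒰, en n U < ε := by
  simp only [bub, mem_ofPred_eq, not_forall] at hx
  obtain ⟨U, hU, hxU, h⟩ := hx
  exact ⟨U, hU, hxU, (Ultrafilter.eventually_not.2 h).mono fun n hn => not_le.1 hn⟩

/-- `en n` is bounded by `E` on finite disjoint families of open sets -/
def SumLe (𝒰 : Ultrafilter ν) (en : ν → Set X → ℝ) (E : ℝ) : Prop :=
  ∀ᶠ n in 𝒰, ∀ (s : Finset X) (U : X → Set X), (∀ x, IsOpen (U x)) →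
    (s : Set X).PairwiseDisjoint U → ∑ x ∈ s, en n (U x) ≤ E

theorem card_le [T2Space X] {𝒰 : Ultrafilter ν} {en : ν → Set X → ℝ} {ε E : ℝ}
    (hE : SumLe 𝒰 en E) (s : Finset X) (hs : (s : Set X) ⊆ bub 𝒰 en ε) : s.card * ε ≤ E := by
  obtain ⟨U, hU, hd⟩ := s.finite_toSet.t2_separation
  have h1 : ∀ᶠ n in 𝒰, ∀ x ∈ s, ε ≤ en n (U x) :=
    (eventually_all_finset s).2 fun x hx => hs hx (U x) (hU x).2 (hU x).1
  obtain ⟨n, hn1, hn2⟩ := (h1.and hE).exists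
  refine le_trans ?_ (hn2 s U (fun x => (hU x).2) hd)
  rw [← nsmul_eq_mul]
  exact Finset.card_nsmul_le_sum s _ _ hn1

theorem finite_bub [T2Space X] {𝒰 : Ultrafilter ν} {en : ν → Set X → ℝ} {ε E : ℝ} (hε : 0 < ε)
    (hE : SumLe 𝒰 en E) : (bub 𝒰 en ε).Finite := by
  by_contra h
  obtain ⟨N, hN⟩ := exists_nat_gt (E / ε)
  obtain ⟨s, hs, hc⟩ := Set.Infinite.exists_subset_card_eq h N
  have := card_le hE s hs
  rw [hc] at this
  rw [div_lt_iff₀ hε] at hN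
  linarith

variable [MeasurableSpace X] [OpensMeasurableSpace X]

/-- the case of nonnegative energy densities of bounded total integral -/
theorem sumLe_integral {𝒰 : Ultrafilter ν} (μ : ν → Measure X) (f : ν → X → ℝ) {E : ℝ}
    (h : ∀ᶠ n in 𝒰, (∀ x, 0 ≤ f n x) ∧ Integrable (f n) (μ n) ∧ ∫ x, f n x ∂μ n ≤ E) :
    SumLe 𝒰 (fun n U => ∫ x in U, f n x ∂μ n) E := by
  refine h.mono fun n ⟨h0, hi, hE⟩ s U hU hd => le_trans ?_ hE
  rw [← integral_biUnion_finset s (fun x _ => (hU x).measurableSet) hd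
    fun x _ => hi.integrableOn]
  exact setIntegral_le_integral hi (Eventually.of_forall h0)

/-- **Bubbling points**: finitely many points, off which the energy is locally small. -/
theorem exists_bub [T2Space X] {𝒰 : Ultrafilter ν} (μ : ν → Measure X) (f : ν → X → ℝ) {E ε : ℝ}
    (hε : 0 < ε)
    (h : ∀ᶠ n in 𝒰, (∀ x, 0 ≤ f n x) ∧ Integrable (f n) (μ n) ∧ ∫ x, f n x ∂μ n ≤ E) :
    ∃ S : Finset X, S.card * ε ≤ E ∧
      (∀ x ∈ S, ∀ U, IsOpen U → x ∈ U → ∀ᶠ n in 𝒰, ε ≤ ∫ y in U, f n y ∂μ n) ∧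
      ∀ x ∉ S, ∃ U, IsOpen U ∧ x ∈ U ∧ ∀ᶠ n in 𝒰, ∫ y in U, f n y ∂μ n < ε := by
  have hS := sumLe_integral μ f h
  have hf := finite_bub hε hS
  refine ⟨hf.toFinset, card_le hS _ (by simp), fun x hx => hf.mem_toFinset.1 hx,
    fun x hx => small_of_notMem fun h' => hx (hf.mem_toFinset.2 h')⟩

/-- local version on an open set `Ω` (for instance the complement of the pinched points, or a
piece of the exhaustion): the energy is only controlled on `Ω`. -/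
theorem exists_bub_on [T2Space X] {𝒰 : Ultrafilter ν} (μ : ν → Measure X) (f : ν → X → ℝ)
    {Ω : Set X} (hΩ : IsOpen Ω) {E ε : ℝ} (hε : 0 < ε)
    (h : ∀ᶠ n in 𝒰, (∀ x, 0 ≤ f n x) ∧ IntegrableOn (f n) Ω (μ n) ∧
      ∫ x in Ω, f n x ∂μ n ≤ E) :
    ∃ S : Finset X, (S : Set X) ⊆ Ω ∧ S.card * ε ≤ E ∧
      (∀ x ∈ S, ∀ U, IsOpen U → U ⊆ Ω → x ∈ U → ∀ᶠ n in 𝒰, ε ≤ ∫ y in U, f n y ∂μ n) ∧
      ∀ x ∈ Ω, x ∉ S → ∃ U, IsOpen U ∧ U ⊆ Ω ∧ x ∈ U ∧ ∀ᶠ n in 𝒰, ∫ y in U, f n y ∂μ n < ε := by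
  classical
  obtain ⟨S, hc, h1, h2⟩ := exists_bub (fun n => (μ n).restrict Ω) f hε h
  have e : ∀ n U, IsOpen U → (μ n).restrict (U ∩ Ω) = ((μ n).restrict Ω).restrict U :=
    fun n U hU => (Measure.restrict_restrict hU.measurableSet).symm
  refine ⟨S.filter (· ∈ Ω), fun x hx => (Finset.mem_filter.1 hx).2, le_trans ?_ hc,
    fun x hx U hU hUΩ hxU => ?_, fun x hx hxS => ?_⟩
  · exact mul_le_mul_of_nonneg_right (Nat.cast_le.2 (Finset.card_filter_le _ _)) hε.le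
  · refine (h1 x (Finset.mem_filter.1 hx).1 U hU hxU).mono fun n hn => ?_
    rwa [← e n U hU, inter_eq_self_of_subset_left hUΩ] at hn
  · obtain ⟨U, hU, hxU, h3⟩ := h2 x fun h' => hxS (Finset.mem_filter.2 ⟨h', hx⟩)
    exact ⟨U ∩ Ω, hU.inter hΩ, inter_subset_right, ⟨hxU, hx⟩,
      h3.mono fun n hn => by rwa [e n U hU]⟩

end Crest.Agent.X212.Brk64
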