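import Mathlib

/-!
# Breaking on long necks: the centres

`𝒰` is an ultrafilter of solutions on necks, `J R n` the part of the `n`-th neck at depth `R`,
`win n s` the energy of the window at time `s`, `en n s t` the energy between the times `s ≤ t`.
-/

namespace Crest.Agent.X212.Brk64

open Set Filter Topology

variable {ν : Type*}

/-- The time axes of a family of necks: `J R n` = times at distance `≥ R` from the ends. -/
structure Nk (ν : Type*) where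
  J : ℝ → ν → Set ℝ
  lip : ∀ {R r n s s'}, s ∈ J (R + r) n → |s' - s| ≤ r → s' ∈ J R n
  oc : ∀ R n, (J R n).OrdConnected
  cl : ∀ R n, IsClosed (J R n)

/-- finite necks `[a n, b n]` -/
def Nk.icc (a b : ν → ℝ) : Nk ν where
  J R n := Icc (a n + R) (b n - R)
  lip h h' := ⟨by linarith [h.1, (abs_le.1 h').1], by linarith [h.2, (abs_le.1 h').2]⟩
  oc _ _ := ordConnected_Icc
  cl _ _ := isClosed_Icc

/-- outgoing ends `[a n, ∞)` -/
def Nk.ici (a : ν → ℝ) : Nk ν where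
  J R n := Ici (a n + R)
  lip h h' := by simp only [mem_Ici] at *; linarith [(abs_le.1 h').1]
  oc _ _ := ordConnected_Ici
  cl _ _ := isClosed_Ici

/-- incoming ends `(-∞, b n]` -/
def Nk.iic (b : ν → ℝ) : Nk ν where
  J R n := Iic (b n - R)
  lip h h' := by simp only [mem_Iic] at *; linarith [(abs_le.1 h').2]
  oc _ _ := ordConnected_Iic
  cl _ _ := isClosed_Iic

/-- the whole line -/
def Nk.line (ν : Type*) : Nk ν where
  J _ _ := univ
  lip _ _ := mem_univ _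
  oc _ _ := ordConnected_univ
  cl _ _ := isClosed_univ

theorem Nk.anti (N : Nk ν) {R R' : ℝ} (h : R ≤ R') (n : ν) : N.J R' n ⊆ N.J R n := fun s hs =>
  N.lip (r := R' - R) (s := s) (by simpa using hs) (by simpa using h)

/-- `s n` runs away from the ends -/
def Nk.Deep (N : Nk ν) (𝒰 : Ultrafilter ν) (s : ν → ℝ) : Prop := ∀ R, ∀ᶠ n in 𝒰, s n ∈ N.J R n

theorem Nk.Deep.add {N : Nk ν} {𝒰 : Ultrafilter ν} {s : ν → ℝ} (h : N.Deep 𝒰 s) (r : ℝ) :
    N.Deep 𝒰 fun n => s n + r := fun R =>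
  (h (R + |r|)).mono fun n hn => N.lip hn (by simp)

/-- What is needed for a diagonal choice: either `𝒰` is countably incomplete (sequences, necks of
length `→ ∞`), or the superlevel sets of the window energy are compact. -/
def Nk.Sel (N : Nk ν) (𝒰 : Ultrafilter ν) (win : ν → ℝ → ℝ) : Prop :=
  (∃ h : ν → ℝ, Tendsto h 𝒰 atTop) ∨ ∀ n, ∀ ε > 0, IsCompact {s ∈ N.J 0 n | ε ≤ win n s}

theorem diag {α : Type*} [Nonempty α] {𝒰 : Ultrafilter ν} {A : ℕ → ν → Set α}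
    (anti : ∀ n, Antitone fun R => A R n) (hne : ∀ R, ∀ᶠ n in 𝒰, (A R n).Nonempty)
    (hs : (∃ h : ν → ℝ, Tendsto h 𝒰 atTop) ∨
      ∀ n, (∀ R, (A R n).Nonempty) → (⋂ R, A R n).Nonempty) :
    ∃ s : ν → α, ∀ R, ∀ᶠ n in 𝒰, s n ∈ A R n := by
  classical
  rcases hs with ⟨h, hh⟩ | hs
  · have : ∀ n, ∃ x, ∀ R : ℕ, (R : ℝ) ≤ h n → (A R n).Nonempty → x ∈ A R n := by
      intro n
      by_cases h0 : (A 0 n).Nonempty
      · obtain ⟨x, hx⟩ := Nat.findGreatest_spec (P := fun R => (A R n).Nonempty)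
          (Nat.zero_le ⌊h n⌋₊) h0
        exact ⟨x, fun R hR hA => anti n (Nat.le_findGreatest (Nat.le_floor hR) hA) hx⟩
      · exact ⟨Classical.arbitrary α, fun R _ hA => absurd (hA.mono (anti n (Nat.zero_le R))) h0⟩
    choose s hs using this
    exact ⟨s, fun R => ((hne R).and (hh.eventually_ge_atTop R)).mono fun n hn => hs n R hn.2 hn.1⟩
  · have : ∀ n, ∃ x, ∀ R : ℕ, (A R n).Nonempty → x ∈ A R n := by
      intro n
      by_cases h0 : ∀ R, (A R n).Nonempty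
      · obtain ⟨x, hx⟩ := hs n h0
        exact ⟨x, fun R _ => mem_iInter.1 hx R⟩
      · have h0' : ∃ R, ¬(A R n).Nonempty := not_forall.1 h0
        rcases hR : Nat.find h0' with _ | m
        · refine ⟨Classical.arbitrary α, fun R hA => absurd (hA.mono (anti n (Nat.zero_le R))) ?_⟩
          exact hR ▸ Nat.find_spec h0'
        · obtain ⟨x, hx⟩ := not_not.1 (Nat.find_min h0' (m := m) (by omega))
          refine ⟨x, fun R hA => anti n ?_ hx⟩
          by_contra hh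
          exact Nat.find_spec h0' (hA.mono (anti n (by omega)))
    choose s hs using this
    exact ⟨s, fun R => (hne R).mono fun n hn => hs n R hn⟩

/-- `t` runs away from `s` to the right -/
def Rt (𝒰 : Ultrafilter ν) (s t : ν → ℝ) : Prop := Tendsto (fun n => t n - s n) 𝒰 atTop

theorem Rt.trans {𝒰 : Ultrafilter ν} {s t u : ν → ℝ} (h : Rt 𝒰 s t) (h' : Rt 𝒰 t u) :
    Rt 𝒰 s u := by
  simpa [Rt] using Tendsto.atTop_add_atTop h' h

theorem Rt.irrefl {𝒰 : Ultrafilter ν} (s : ν → ℝ) : ¬Rt 𝒰 s s := fun h => by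
  obtain ⟨n, hn⟩ := (h.eventually_gt_atTop 0).exists
  simp at hn

theorem rt_or {𝒰 : Ultrafilter ν} {s t : ν → ℝ} (h : Tendsto (fun n => |t n - s n|) 𝒰 atTop) :
    Rt 𝒰 s t ∨ Rt 𝒰 t s := by
  rcases 𝒰.em fun n => s n ≤ t n with h1 | h1
  · exact Or.inl (h.congr' (h1.mono fun n hn => abs_of_nonneg (sub_nonneg.2 hn)))
  · refine Or.inr (h.congr' (h1.mono fun n hn => ?_))
    simp only [abs_of_neg (sub_neg.2 (not_le.1 hn)), neg_sub]

/-- a family of pairwise diverging times can be sorted -/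
theorem sort_div {𝒰 : Ultrafilter ν} {κ : Type*} [Fintype κ] (t : κ → ν → ℝ)
    (h : ∀ i j, i ≠ j → Rt 𝒰 (t i) (t j) ∨ Rt 𝒰 (t j) (t i)) {k : ℕ} (hk : Fintype.card κ = k) :
    ∃ e : Fin k ≃ κ, ∀ i j, i < j → Rt 𝒰 (t (e i)) (t (e j)) := by
  classical
  let r : κ → κ → Prop := fun i j => Rt 𝒰 (t i) (t j)
  have : IsStrictTotalOrder κ r :=
    { trichotomous := fun i j h1 h2 => by
        by_contra hne
        rcases h i j hne with h' | h'
        · exact h1 h'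
        · exact h2 h'
      irrefl := fun i => Rt.irrefl _
      trans := fun _ _ _ => Rt.trans }
  let := linearOrderOfSTO r
  exact ⟨(monoEquivOfFin κ hk).toEquiv, fun i j hij => (monoEquivOfFin κ hk).strictMono hij⟩

/-- superadditive energy, bounded by `E` -/
def Nk.En (N : Nk ν) (𝒰 : Ultrafilter ν) (en : ν → ℝ → ℝ → ℝ) (E : ℝ) : Prop :=
  ∀ᶠ n in 𝒰, (∀ s t t' u, s ∈ N.J 0 n → u ∈ N.J 0 n → s ≤ t → t ≤ t' → t' ≤ u →
    en n s t + en n t' u ≤ en n s u) ∧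
    ∀ s t, s ∈ N.J 0 n → t ∈ N.J 0 n → s ≤ t → 0 ≤ en n s t ∧ en n s t ≤ E

theorem chain_sum {J : Set ℝ} {e : ℝ → ℝ → ℝ}
    (he : ∀ s t t' u, s ∈ J → u ∈ J → s ≤ t → t ≤ t' → t' ≤ u → e s t + e t' u ≤ e s u) (k : ℕ)
    (p q : Fin (k + 1) → ℝ) (hp : ∀ i, p i ∈ J) (hq : ∀ i, q i ∈ J) (hpq : ∀ i, p i ≤ q i)
    (hqp : ∀ i j, i < j → q i ≤ p j) : ∑ i, e (p i) (q i) ≤ e (p 0) (q (Fin.last k)) := by
  induction k with
  | zero => simp
  | succ k ih =>
    rw [Fin.sum_univ_castSucc]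
    have h1 := ih (fun i => p i.castSucc) (fun i => q i.castSucc) (fun i => hp _) (fun i => hq _)
      (fun i => hpq _) fun i j hij => hqp _ _ (Fin.castSucc_lt_castSucc_iff.2 hij)
    have h2 : p 0 ≤ q (Fin.last k).castSucc := by
      rcases (Fin.zero_le (Fin.last k).castSucc).eq_or_lt with h | h
      · rw [← h]; exact hpq 0
      · exact (hpq 0).trans ((hqp _ _ h).trans (hpq _))
    have h3 := he _ _ _ _ (hp 0) (hq (Fin.last (k + 1))) h2
      (hqp _ _ (Fin.castSucc_lt_last (Fin.last k))) (hpq _)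
    simp only [Fin.castSucc_zero] at h1
    linarith

/-- the energies carried by diverging windows add up to at most `E` -/
theorem Nk.sum_en_le (N : Nk ν) {𝒰 : Ultrafilter ν} {en : ν → ℝ → ℝ → ℝ} {E : ℝ} (hE0 : 0 ≤ E)
    (hE : N.En 𝒰 en E) {k : ℕ} {t : Fin k → ν → ℝ} (hd : ∀ i, N.Deep 𝒰 (t i))
    (hs : ∀ i j, i < j → Rt 𝒰 (t i) (t j)) (R : Fin k → ℝ) (hR : ∀ i, 0 ≤ R i) :
    ∀ᶠ n in 𝒰, ∑ i, en n (t i n - R i) (t i n + R i) ≤ E := by
  rcases k with _ | k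
  · simpa using hE0
  have h1 : ∀ᶠ n in 𝒰, ∀ i, t i n ∈ N.J (0 + R i) n := eventually_all.2 fun i => hd i _
  have h2 : ∀ᶠ n in 𝒰, ∀ i j, i < j → R i + R j ≤ t j n - t i n :=
    eventually_all.2 fun i => eventually_all.2 fun j => eventually_imp_distrib_left.2 fun hij =>
      (hs i j hij).eventually_ge_atTop _
  filter_upwards [h1, h2, hE] with n h1 h2 hE
  have hp : ∀ i, t i n - R i ∈ N.J 0 n := fun i => N.lip (h1 i) (by simp [abs_of_nonneg (hR i)])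
  have hq : ∀ i, t i n + R i ∈ N.J 0 n := fun i => N.lip (h1 i) (by simp [abs_of_nonneg (hR i)])
  refine (chain_sum hE.1 k _ _ hp hq (fun i => by linarith [hR i])
    fun i j hij => by linarith [h2 i j hij]).trans (hE.2 _ _ (hp 0) (hq _) ?_).2
  rcases (Fin.zero_le (Fin.last k)).eq_or_lt with h | h
  · rw [← h]; linarith [hR 0]
  · linarith [h2 _ _ h, hR 0, hR (Fin.last k)]

/-- `s n` carries energy in the limit -/
def Carry (𝒰 : Ultrafilter ν) (win : ν → ℝ → ℝ) (s : ν → ℝ) : Prop :=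
  ∃ ε > 0, ∀ᶠ n in 𝒰, ε ≤ win n (s n)

/-- The centres of breaking: sorted, deep, each one carries energy, and away from them and from the
ends the window energy tends to zero uniformly. -/
structure Nk.Cen (N : Nk ν) (𝒰 : Ultrafilter ν) (win : ν → ℝ → ℝ) (k : ℕ) (t : Fin k → ν → ℝ) :
    Prop where
  deep : ∀ i, N.Deep 𝒰 (t i)
  sep : ∀ i j, i < j → Rt 𝒰 (t i) (t j)
  carry : ∀ i, Carry 𝒰 win (t i)
  gap : ∀ ε > 0, ∃ R, ∀ᶠ n in 𝒰, ∀ s ∈ N.J R n, (∀ i, R ≤ |s - t i n|) → win n s < ε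

/-- **Centres.**  `hq` = energy quantisation: a deep sequence of windows which carries energy
carries at least `ε₁` in a bounded neighbourhood. -/
theorem Nk.exists_cen (N : Nk ν) {𝒰 : Ultrafilter ν} {win : ν → ℝ → ℝ} {en : ν → ℝ → ℝ → ℝ}
    {E ε₁ : ℝ} (hE0 : 0 ≤ E) (hε : 0 < ε₁) (hE : N.En 𝒰 en E) (hsel : N.Sel 𝒰 win)
    (hq : ∀ s, N.Deep 𝒰 s → Carry 𝒰 win s →
      ∃ R, 0 ≤ R ∧ ∀ᶠ n in 𝒰, ε₁ ≤ en n (s n - R) (s n + R)) :
    ∃ (k : ℕ) (t : Fin k → ν → ℝ), k * ε₁ ≤ E ∧ N.Cen 𝒰 win k t := by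
  classical
  let P : ℕ → Prop := fun k => ∃ t : Fin k → ν → ℝ, (∀ i, N.Deep 𝒰 (t i)) ∧
    (∀ i j, i < j → Rt 𝒰 (t i) (t j)) ∧ ∀ i, Carry 𝒰 win (t i)
  have hb : ∀ k, P k → k * ε₁ ≤ E := by
    rintro k ⟨t, hd, hs, hc⟩
    choose R hR0 hR using fun i => hq _ (hd i) (hc i)
    obtain ⟨n, h1, h2⟩ := ((N.sum_en_le hE0 hE hd hs R hR0).and (eventually_all.2 hR)).exists
    refine le_trans ?_ h1
    simpa using Finset.card_nsmul_le_sum Finset.univ _ _ fun i _ => h2 i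
  have hb' : ∀ k, P k → k ≤ ⌊E / ε₁⌋₊ := fun k hk =>
    Nat.le_floor ((le_div_iff₀ hε).2 (hb k hk))
  have h0 : P 0 := ⟨Fin.elim0, fun i => i.elim0, fun i => i.elim0, fun i => i.elim0⟩
  have hk := Nat.findGreatest_spec (P := P) (Nat.zero_le ⌊E / ε₁⌋₊) h0
  set k := Nat.findGreatest P ⌊E / ε₁⌋₊ with hkd
  have hmax : ¬P (k + 1) := fun h =>
    absurd (Nat.le_findGreatest (hb' _ h) h) (by rw [← hkd]; omega)
  refine (id hk : ∃ _, _).elim fun t ⟨hd, hs, hc⟩ => ⟨k, t, hb k hk, hd, hs, hc, fun ε hε => ?_⟩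
  by_contra hcon
  have hne : ∀ R : ℕ, ∀ᶠ n in 𝒰,
      {s | (s ∈ N.J R n ∧ ∀ i, (R : ℝ) ≤ |s - t i n|) ∧ ε ≤ win n s}.Nonempty := fun R => by
    refine (Ultrafilter.eventually_not.2 fun h => hcon ⟨R, h⟩).mono fun n hn => ?_
    push Not at hn
    obtain ⟨s, h1, h2, h3⟩ := hn
    exact ⟨s, ⟨h1, h2⟩, h3⟩
  have anti : ∀ n, Antitone fun R : ℕ =>
      {s | (s ∈ N.J R n ∧ ∀ i, (R : ℝ) ≤ |s - t i n|) ∧ ε ≤ win n s} := fun n R R' h s hs =>
    ⟨⟨N.anti (Nat.cast_le.2 h) n hs.1.1, fun i => (Nat.cast_le.2 h).trans (hs.1.2 i)⟩, hs.2⟩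
  obtain ⟨s, hs'⟩ := diag anti hne (hsel.imp id fun hK n hn => by
    have hcl : ∀ R : ℕ, IsClosed {s | s ∈ N.J R n ∧ ∀ i, (R : ℝ) ≤ |s - t i n|} := fun R => by
      have : IsClosed {s | ∀ i, (R : ℝ) ≤ |s - t i n|} := by
        simp only [ofPred_forall]
        exact isClosed_iInter fun i => isClosed_le continuous_const (by fun_prop)
      exact (N.cl R n).inter this
    have hcp : ∀ R : ℕ,
        IsCompact {s | (s ∈ N.J R n ∧ ∀ i, (R : ℝ) ≤ |s - t i n|) ∧ ε ≤ win n s} := fun R => by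
      have := (hK n ε hε).inter_left (hcl R)
      convert this using 1
      ext s
      exact ⟨fun h => ⟨h.1, N.anti (Nat.cast_nonneg R) n h.1.1, h.2⟩, fun h => ⟨h.1, h.2.2⟩⟩
    exact IsCompact.nonempty_iInter_of_sequence_nonempty_isCompact_isClosed _
      (fun R => anti n (Nat.le_succ R)) hn (hcp 0) fun R => (hcp R).isClosed)
  have hdiv : ∀ i, Tendsto (fun n => |s n - t i n|) 𝒰 atTop := fun i =>
    tendsto_atTop.2 fun b => (hs' ⌈b⌉₊).mono fun n hn => (Nat.le_ceil b).trans (hn.1.2 i)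
  let t' : Option (Fin k) → ν → ℝ := fun o => o.elim s t
  obtain ⟨e, he⟩ := sort_div (𝒰 := 𝒰) t' (k := k + 1) (by
    rintro (_ | i) (_ | j) hij
    · exact absurd rfl hij
    · exact (rt_or (hdiv j)).symm
    · exact rt_or (hdiv i)
    · rcases lt_or_gt_of_ne (fun h => hij (congrArg some h)) with h | h
      · exact Or.inl (hs i j h)
      · exact Or.inr (hs j i h)) (by simp)
  have a1 : ∀ o, N.Deep 𝒰 (t' o) := by
    rintro (_ | j)
    · exact fun R => (hs' ⌈R⌉₊).mono fun n hn => N.anti (Nat.le_ceil R) n hn.1.1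
    · exact hd j
  have a2 : ∀ o, Carry 𝒰 win (t' o) := by
    rintro (_ | j)
    · exact ⟨ε, hε, (hs' 0).mono fun n hn => hn.2⟩
    · exact hc j
  exact hmax ⟨fun i => t' (e i), fun i => a1 _, he, fun i => a2 _⟩

/-- energy given by a nonnegative density -/
theorem Nk.en_integral (N : Nk ν) {𝒰 : Ultrafilter ν} (f : ν → ℝ → ℝ) {E : ℝ}
    (h : ∀ᶠ n in 𝒰, (∀ s, 0 ≤ f n s) ∧ ∀ s t, s ∈ N.J 0 n → t ∈ N.J 0 n → s ≤ t →
      IntervalIntegrable (f n) MeasureTheory.volume s t ∧ ∫ x in s..t, f n x ≤ E) :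
    N.En 𝒰 (fun n s t => ∫ x in s..t, f n x) E := by
  refine h.mono fun n ⟨h0, h1⟩ => ⟨fun s t t' u hs hu h2 h3 h4 => ?_, fun s t hs ht hst =>
    ⟨intervalIntegral.integral_nonneg hst fun x _ => h0 x, (h1 s t hs ht hst).2⟩⟩
  have ht : t ∈ N.J 0 n := (N.oc 0 n).out hs hu ⟨h2, h3.trans h4⟩
  have ht' : t' ∈ N.J 0 n := (N.oc 0 n).out hs hu ⟨h2.trans h3, h4⟩
  have e1 := intervalIntegral.integral_add_adjacent_intervals (h1 s t hs ht h2).1
    (h1 t t' ht ht' h3).1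
  have e2 := intervalIntegral.integral_add_adjacent_intervals
    (h1 s t' hs ht' (h2.trans h3)).1 (h1 t' u ht' hu h4).1
  have e3 : 0 ≤ ∫ x in t..t', f n x := intervalIntegral.integral_nonneg h3 fun x _ => h0 x
  linarith

/-- energy given by the drop of a monotone function -/
theorem Nk.en_mono (N : Nk ν) {𝒰 : Ultrafilter ν} (c : ν → ℝ → ℝ) {E : ℝ}
    (h : ∀ᶠ n in 𝒰, MonotoneOn (c n) (N.J 0 n) ∧
      ∀ s t, s ∈ N.J 0 n → t ∈ N.J 0 n → s ≤ t → c n t - c n s ≤ E) :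
    N.En 𝒰 (fun n s t => c n t - c n s) E := by
  refine h.mono fun n ⟨h0, h1⟩ => ⟨fun s t t' u hs hu h2 h3 h4 => ?_, fun s t hs ht hst =>
    ⟨sub_nonneg.2 (h0 hs ht hst), h1 s t hs ht hst⟩⟩
  have := h0 ((N.oc 0 n).out hs hu ⟨h2, h3.trans h4⟩) ((N.oc 0 n).out hs hu ⟨h2.trans h3, h4⟩) h3
  linarith

end Crest.Agent.X212.Brk64
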