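import Crest.Agent.X212.Brk64.Cen

/-!
# Breaking on long necks: the chain of critical points

`near n s β η` : the window of the `n`-th solution at time `s` is `η`-close (modulo gauge) to the
critical point `β`.
-/

namespace Crest.Agent.X212.Brk64

open Set Filter Topology

variable {ν C : Type*}

theorem one_of_cover [Nonempty C] {A : Set ℝ} (hA : IsPreconnected A) (P : ℝ → C → Prop)
    (ex : ∀ s ∈ A, ∃ β, P s β) (uq : ∀ s ∈ A, ∀ β β', P s β → P s β' → β = β')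
    (op : ∀ s ∈ A, ∀ β, P s β → ∀ᶠ s' in 𝓝 s, P s' β) : ∃ β, ∀ s ∈ A, P s β := by
  rcases A.eq_empty_or_nonempty with rfl | ⟨x, hx⟩
  · exact ⟨Classical.arbitrary C, fun s hs => hs.elim⟩
  obtain ⟨β, hβ⟩ := ex x hx
  refine ⟨β, fun s hs => hA.induction₂' (fun x y => ∀ β, P x β → P y β) (fun x hx => ?_)
    (fun _ _ _ _ _ _ h h' β hb => h' β (h β hb)) hx hs β hβ⟩
  obtain ⟨γ, hγ⟩ := ex x hx
  filter_upwards [nhdsWithin_le_nhds (op x hx γ hγ), self_mem_nhdsWithin] with y hy hyA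
  exact ⟨fun β hb => uq x hx γ β hγ hb ▸ hy, fun β hb => uq y hyA γ β hy hb ▸ hγ⟩

/-- The analytic input: closeness to the critical points. -/
structure Nk.Near (N : Nk ν) (𝒰 : Ultrafilter ν) (win : ν → ℝ → ℝ)
    (near : ν → ℝ → C → ℝ → Prop) : Prop where
  mono : ∀ n s β η η', η ≤ η' → near n s β η → near n s β η'
  /-- small energy forces closeness to some critical point -/
  small : ∀ η > 0, ∃ ε > 0, ∃ R, ∀ᶠ n in 𝒰, ∀ s ∈ N.J R n, win n s < ε → ∃ β, near n s β η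
  /-- critical points are isolated, and closeness is an open condition in the time -/
  iso : ∃ η > 0, ∃ R, ∀ᶠ n in 𝒰, ∀ s ∈ N.J R n, ∀ β, near n s β η →
    (∀ β', near n s β' η → β = β') ∧ ∀ᶠ s' in 𝓝 s, near n s' β η

/-- the metric form of `Near` -/
theorem Nk.near_of_dist (N : Nk ν) {𝒰 : Ultrafilter ν} {win : ν → ℝ → ℝ} {W : Type*}
    [PseudoMetricSpace W] (w : ν → ℝ → W) (cr : C → W) {ρ R₀ : ℝ} (hρ : 0 < ρ)
    (hsep : ∀ β β', dist (cr β) (cr β') < ρ → β = β')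
    (hc : ∀ᶠ n in 𝒰, ∀ s ∈ N.J R₀ n, ContinuousAt (w n) s)
    (small : ∀ η > 0, ∃ ε > 0, ∃ R, ∀ᶠ n in 𝒰, ∀ s ∈ N.J R n, win n s < ε →
      ∃ β, dist (w n s) (cr β) < η) :
    N.Near 𝒰 win fun n s β η => dist (w n s) (cr β) < η where
  mono _ _ _ _ _ h h' := h'.trans_le h
  small := small
  iso := ⟨ρ / 2, half_pos hρ, R₀, hc.mono fun n hn s hs β hβ =>
    ⟨fun β' hβ' => hsep _ _ (by linarith [dist_triangle_left (cr β) (cr β') (w n s)]),
      ((hn s hs).dist continuousAt_const).eventually_lt_const hβ⟩⟩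

/-- the `g`-th gap between the centres, at depth `R` -/
def Nk.Gap (N : Nk ν) {k : ℕ} (t : Fin k → ν → ℝ) (g : Fin (k + 1)) (R : ℝ) (n : ν) : Set ℝ :=
  {s | s ∈ N.J R n ∧ ∀ i : Fin k, (i.castSucc < g → t i n + R ≤ s) ∧ (g ≤ i.castSucc → s + R ≤ t i n)}

theorem Nk.gap_anti (N : Nk ν) {k : ℕ} (t : Fin k → ν → ℝ) (g : Fin (k + 1)) {R R' : ℝ}
    (h : R ≤ R') (n : ν) : N.Gap t g R' n ⊆ N.Gap t g R n := fun _ hs =>
  ⟨N.anti h n hs.1, fun i => ⟨fun h' => by linarith [(hs.2 i).1 h'],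
    fun h' => by linarith [(hs.2 i).2 h']⟩⟩

theorem Nk.gap_oc (N : Nk ν) {k : ℕ} (t : Fin k → ν → ℝ) (g : Fin (k + 1)) (R : ℝ) (n : ν) :
    (N.Gap t g R n).OrdConnected :=
  ⟨fun _ hx _ hy _ hs => ⟨(N.oc R n).out hx.1 hy.1 hs, fun i =>
    ⟨fun h => ((hx.2 i).1 h).trans hs.1, fun h => by linarith [(hy.2 i).2 h, hs.2]⟩⟩⟩

theorem Nk.gap_far (N : Nk ν) {k : ℕ} {t : Fin k → ν → ℝ} {g : Fin (k + 1)} {R : ℝ} {n : ν}
    {s : ℝ} (hs : s ∈ N.Gap t g R n) (i : Fin k) : R ≤ |s - t i n| := by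
  rcases lt_or_ge i.castSucc g with h | h
  · exact le_trans (by linarith [(hs.2 i).1 h]) (le_abs_self _)
  · exact le_trans (by linarith [(hs.2 i).2 h]) (neg_le_abs _)

/-- the chain of critical points: in the `g`-th gap the solutions stay near `β g` -/
def Nk.Chain (N : Nk ν) (𝒰 : Ultrafilter ν) (near : ν → ℝ → C → ℝ → Prop) {k : ℕ}
    (t : Fin k → ν → ℝ) (β : Fin (k + 1) → C) : Prop :=
  ∀ η > 0, ∃ R, 0 ≤ R ∧ ∀ᶠ n in 𝒰, ∀ g, ∀ s ∈ N.Gap t g R n, near n s (β g) η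

theorem Nk.Cen.chain [Finite C] [Nonempty C] {N : Nk ν} {𝒰 : Ultrafilter ν} {win : ν → ℝ → ℝ}
    {near : ν → ℝ → C → ℝ → Prop} {k : ℕ} {t : Fin k → ν → ℝ} (h : N.Cen 𝒰 win k t)
    (hn : N.Near 𝒰 win near) : ∃ β, N.Chain 𝒰 near t β := by
  have key : ∀ η > 0, ∃ R, 0 ≤ R ∧ ∀ᶠ n in 𝒰, ∀ g, ∀ s ∈ N.Gap t g R n, ∃ β, near n s β η := by
    intro η hη
    obtain ⟨ε, hε, R1, h1⟩ := hn.small η hη
    obtain ⟨R2, h2⟩ := h.gap ε hε
    refine ⟨max 0 (max R1 R2), le_max_left _ _, ?_⟩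
    filter_upwards [h1, h2] with n h1 h2 g s hs
    have e1 : R1 ≤ max 0 (max R1 R2) := (le_max_left _ _).trans (le_max_right _ _)
    have e2 : R2 ≤ max 0 (max R1 R2) := (le_max_right _ _).trans (le_max_right _ _)
    exact h1 s (N.anti e1 n hs.1) (h2 s (N.anti e2 n hs.1) fun i => e2.trans (N.gap_far hs i))
  obtain ⟨η0, hη0, R0, h0⟩ := hn.iso
  obtain ⟨R1, -, h1⟩ := key η0 hη0
  have h2 : ∀ g, ∃ β, ∀ᶠ n in 𝒰, ∀ s ∈ N.Gap t g (max R0 R1) n, near n s β η0 := fun g => by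
    refine Ultrafilter.eventually_exists_iff.1 ?_
    filter_upwards [h0, h1] with n h0 h1
    have e0 := fun s (hs : s ∈ N.Gap t g (max R0 R1) n) => h0 s (N.anti (le_max_left _ _) n hs.1)
    exact one_of_cover (N.gap_oc t g _ n).isPreconnected (fun s β => near n s β η0)
      (fun s hs => h1 g s (N.gap_anti t g (le_max_right _ _) n hs))
      (fun s hs β β' hb => (e0 s hs β hb).1 β') fun s hs β hb => (e0 s hs β hb).2
  choose β hβ using h2
  refine ⟨β, fun η hη => ?_⟩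
  obtain ⟨R2, hR2, h2⟩ := key (min η η0) (lt_min hη hη0)
  refine ⟨max (max R0 R1) R2, hR2.trans (le_max_right _ _), ?_⟩
  filter_upwards [h0, h2, eventually_all.2 hβ] with n h0 h2 h3 g s hs
  obtain ⟨γ, hγ⟩ := h2 g s (N.gap_anti t g (le_max_right _ _) n hs)
  have hs' := N.gap_anti t g (le_max_left _ _) n hs
  rw [(h0 s (N.anti (le_max_left _ _) n hs'.1) _ (h3 g s hs')).1 γ
    (hn.mono _ _ _ _ _ (min_le_right _ _) hγ)]
  exact hn.mono _ _ _ _ _ (min_le_left _ _) hγ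

theorem Nk.Cen.mem_right {N : Nk ν} {𝒰 : Ultrafilter ν} {win : ν → ℝ → ℝ} {k : ℕ}
    {t : Fin k → ν → ℝ} (h : N.Cen 𝒰 win k t) (i : Fin k) {R s : ℝ} (hs : R ≤ s) :
    ∀ᶠ n in 𝒰, t i n + s ∈ N.Gap t i.succ R n := by
  have h1 : ∀ᶠ n in 𝒰, ∀ j, j < i → 0 ≤ t i n - t j n := eventually_all.2 fun j =>
    eventually_imp_distrib_left.2 fun hj => (h.sep j i hj).eventually_ge_atTop _
  have h2 : ∀ᶠ n in 𝒰, ∀ j, i < j → s + R ≤ t j n - t i n := eventually_all.2 fun j =>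
    eventually_imp_distrib_left.2 fun hj => (h.sep i j hj).eventually_ge_atTop _
  filter_upwards [h1, h2, (h.deep i).add s R] with n h1 h2 h3
  refine ⟨h3, fun j => ⟨fun hj => ?_, fun hj => ?_⟩⟩
  · rcases (Fin.castSucc_lt_succ_iff.1 hj).eq_or_lt with rfl | hj
    · linarith
    · linarith [h1 j hj]
  · linarith [h2 j (Fin.succ_le_castSucc_iff.1 hj)]

theorem Nk.Cen.mem_left {N : Nk ν} {𝒰 : Ultrafilter ν} {win : ν → ℝ → ℝ} {k : ℕ}
    {t : Fin k → ν → ℝ} (h : N.Cen 𝒰 win k t) (i : Fin k) {R s : ℝ} (hs : R ≤ s) :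
    ∀ᶠ n in 𝒰, t i n - s ∈ N.Gap t i.castSucc R n := by
  have h1 : ∀ᶠ n in 𝒰, ∀ j, j < i → s + R ≤ t i n - t j n := eventually_all.2 fun j =>
    eventually_imp_distrib_left.2 fun hj => (h.sep j i hj).eventually_ge_atTop _
  have h2 : ∀ᶠ n in 𝒰, ∀ j, i < j → 0 ≤ t j n - t i n := eventually_all.2 fun j =>
    eventually_imp_distrib_left.2 fun hj => (h.sep i j hj).eventually_ge_atTop _
  filter_upwards [h1, h2, (h.deep i).add (-s) R] with n h1 h2 h3
  refine ⟨by simpa [sub_eq_add_neg] using h3, fun j => ⟨fun hj => ?_, fun hj => ?_⟩⟩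
  · linarith [h1 j (Fin.castSucc_lt_castSucc_iff.1 hj)]
  · rcases (Fin.castSucc_le_castSucc_iff.1 hj).eq_or_lt with rfl | hj
    · linarith
    · linarith [h2 j hj]

/-- the limit at the centre `i` runs into `β (i+1)` -/
theorem Nk.Chain.right {N : Nk ν} {𝒰 : Ultrafilter ν} {win : ν → ℝ → ℝ}
    {near : ν → ℝ → C → ℝ → Prop} {k : ℕ} {t : Fin k → ν → ℝ} {β : Fin (k + 1) → C}
    (hc : N.Chain 𝒰 near t β) (h : N.Cen 𝒰 win k t) (i : Fin k) {η : ℝ} (hη : 0 < η) :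
    ∃ R, ∀ s, R ≤ s → ∀ᶠ n in 𝒰, near n (t i n + s) (β i.succ) η := by
  obtain ⟨R, -, h1⟩ := hc η hη
  exact ⟨R, fun s hs => ((h.mem_right i hs).and h1).mono fun n hn => hn.2 _ _ hn.1⟩

/-- the limit at the centre `i` comes from `β i` -/
theorem Nk.Chain.left {N : Nk ν} {𝒰 : Ultrafilter ν} {win : ν → ℝ → ℝ}
    {near : ν → ℝ → C → ℝ → Prop} {k : ℕ} {t : Fin k → ν → ℝ} {β : Fin (k + 1) → C}
    (hc : N.Chain 𝒰 near t β) (h : N.Cen 𝒰 win k t) (i : Fin k) {η : ℝ} (hη : 0 < η) :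
    ∃ R, ∀ s, R ≤ s → ∀ᶠ n in 𝒰, near n (t i n - s) (β i.castSucc) η := by
  obtain ⟨R, -, h1⟩ := hc η hη
  exact ⟨R, fun s hs => ((h.mem_left i hs).and h1).mono fun n hn => hn.2 _ _ hn.1⟩

/-- **Broken trajectories**, general form. -/
theorem Nk.break [Finite C] [Nonempty C] (N : Nk ν) {𝒰 : Ultrafilter ν} {win : ν → ℝ → ℝ}
    {en : ν → ℝ → ℝ → ℝ} {near : ν → ℝ → C → ℝ → Prop} {E ε₁ : ℝ} (hE0 : 0 ≤ E) (hε : 0 < ε₁)
    (hE : N.En 𝒰 en E) (hsel : N.Sel 𝒰 win) (hn : N.Near 𝒰 win near)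
    (hq : ∀ s, N.Deep 𝒰 s → Carry 𝒰 win s →
      ∃ R, 0 ≤ R ∧ ∀ᶠ n in 𝒰, ε₁ ≤ en n (s n - R) (s n + R)) :
    ∃ (k : ℕ) (t : Fin k → ν → ℝ) (β : Fin (k + 1) → C),
      k * ε₁ ≤ E ∧ N.Cen 𝒰 win k t ∧ N.Chain 𝒰 near t β := by
  obtain ⟨k, t, h1, h2⟩ := N.exists_cen hE0 hε hE hsel hq
  obtain ⟨β, h3⟩ := h2.chain hn
  exact ⟨k, t, β, h1, h2, h3⟩

/-- the knots `a, t 0, …, t (k-1), b` of a finite neck -/
def knots {k : ℕ} (a b : ν → ℝ) (t : Fin k → ν → ℝ) : Fin (k + 2) → ν → ℝ :=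
  Fin.cons a (Fin.snoc (α := fun _ => ν → ℝ) t b)

@[simp] theorem knots_zero {k : ℕ} (a b : ν → ℝ) (t : Fin k → ν → ℝ) : knots a b t 0 = a := rfl

@[simp] theorem knots_last {k : ℕ} (a b : ν → ℝ) (t : Fin k → ν → ℝ) :
    knots a b t (Fin.last (k + 1)) = b := by
  rw [knots, ← Fin.succ_last, Fin.cons_succ, Fin.snoc_last]

@[simp] theorem knots_mid {k : ℕ} (a b : ν → ℝ) (t : Fin k → ν → ℝ) (i : Fin k) :
    knots a b t i.castSucc.succ = t i := by
  rw [knots, Fin.cons_succ, Fin.snoc_castSucc]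

theorem deep_icc {𝒰 : Ultrafilter ν} {a b s : ν → ℝ} :
    (Nk.icc a b).Deep 𝒰 s ↔ Rt 𝒰 a s ∧ Rt 𝒰 s b :=
  ⟨fun h => ⟨tendsto_atTop.2 fun R => (h R).mono fun n hn => by linarith [hn.1],
      tendsto_atTop.2 fun R => (h R).mono fun n hn => by linarith [hn.2]⟩,
    fun h R => ((h.1.eventually_ge_atTop R).and (h.2.eventually_ge_atTop R)).mono fun n hn =>
      ⟨by linarith [hn.1], by linarith [hn.2]⟩⟩

theorem knots_sep {𝒰 : Ultrafilter ν} {win : ν → ℝ → ℝ} {k : ℕ} {a b : ν → ℝ}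
    {t : Fin k → ν → ℝ} (hab : Rt 𝒰 a b) (h : (Nk.icc a b).Cen 𝒰 win k t) (i j : Fin (k + 2))
    (hij : i < j) : Rt 𝒰 (knots a b t i) (knots a b t j) := by
  obtain ⟨j, rfl⟩ := Fin.exists_succ_eq.2 (Fin.pos_iff_ne_zero.1 ((Fin.zero_le i).trans_lt hij))
  induction i using Fin.cases with
  | zero =>
    induction j using Fin.lastCases with
    | last => rw [Fin.succ_last, knots_last]; exact hab
    | cast j => rw [knots_mid]; exact (deep_icc.1 (h.deep j)).1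
  | succ i =>
    have hij' := Fin.succ_lt_succ_iff.1 hij
    obtain ⟨i, rfl⟩ := Fin.exists_castSucc_eq.2 (hij'.trans_le (Fin.le_last j)).ne
    rw [knots_mid]
    induction j using Fin.lastCases with
    | last => rw [Fin.succ_last, knots_last]; exact (deep_icc.1 (h.deep i)).2
    | cast j => rw [knots_mid]; exact h.sep i j (Fin.castSucc_lt_castSucc_iff.1 hij')

/-- **Broken trajectories on a long finite neck** `[a n, b n]`: knots `p 0 = a < … < p last = b`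
running away from each other, the inner ones carry energy, and between consecutive knots the
solutions stay near one critical point. -/
theorem break_icc [Finite C] [Nonempty C] {𝒰 : Ultrafilter ν} {a b : ν → ℝ} (hab : Rt 𝒰 a b)
    {win : ν → ℝ → ℝ} {en : ν → ℝ → ℝ → ℝ} {near : ν → ℝ → C → ℝ → Prop} {E ε₁ : ℝ}
    (hE0 : 0 ≤ E) (hε : 0 < ε₁) (hE : (Nk.icc a b).En 𝒰 en E)
    (hn : (Nk.icc a b).Near 𝒰 win near)
    (hq : ∀ s, Rt 𝒰 a s → Rt 𝒰 s b → Carry 𝒰 win s →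
      ∃ R, 0 ≤ R ∧ ∀ᶠ n in 𝒰, ε₁ ≤ en n (s n - R) (s n + R)) :
    ∃ (k : ℕ) (p : Fin (k + 2) → ν → ℝ) (β : Fin (k + 1) → C),
      k * ε₁ ≤ E ∧ p 0 = a ∧ p (Fin.last _) = b ∧ (∀ i j, i < j → Rt 𝒰 (p i) (p j)) ∧
      (∀ i : Fin k, Carry 𝒰 win (p i.castSucc.succ)) ∧
      ∀ η > 0, ∃ R, 0 ≤ R ∧ ∀ᶠ n in 𝒰, ∀ g : Fin (k + 1),
        ∀ s ∈ Icc (p g.castSucc n + R) (p g.succ n - R), near n s (β g) η := by
  obtain ⟨k, t, β, h1, h2, h3⟩ := (Nk.icc a b).break hE0 hε hE (Or.inl ⟨_, hab⟩) hn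
    fun s hs => hq s (deep_icc.1 hs).1 (deep_icc.1 hs).2
  have hs := knots_sep hab h2
  refine ⟨k, knots a b t, β, h1, rfl, knots_last a b t, hs, fun i => by simpa using h2.carry i,
    fun η hη => ?_⟩
  obtain ⟨R, hR, h4⟩ := h3 η hη
  have h5 : ∀ᶠ n in 𝒰, ∀ i j, i ≤ j → knots a b t i n ≤ knots a b t j n :=
    eventually_all.2 fun i => eventually_all.2 fun j => eventually_imp_distrib_left.2 fun hij => by
      rcases hij.eq_or_lt with rfl | hij
      · exact Eventually.of_forall fun _ => le_rfl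
      · exact ((hs i j hij).eventually_ge_atTop 0).mono fun n hn => sub_nonneg.1 hn
  refine ⟨R, hR, ?_⟩
  filter_upwards [h4, h5] with n h4 h5 g s hs
  refine h4 g s ⟨⟨?_, ?_⟩, fun i => ⟨fun hi => ?_, fun hi => ?_⟩⟩
  · have := h5 0 g.castSucc (Fin.zero_le _)
    rw [knots_zero] at this
    linarith [hs.1]
  · have := h5 g.succ (Fin.last _) (Fin.le_last _)
    rw [knots_last] at this
    linarith [hs.2]
  · have := h5 i.castSucc.succ g.castSucc (Fin.succ_le_castSucc_iff.2 hi)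
    rw [knots_mid] at this
    linarith [hs.1]
  · have := h5 g.succ i.castSucc.succ (Fin.succ_le_succ_iff.2 hi)
    rw [knots_mid] at this
    linarith [hs.2]

/-- **Limit of one trajectory at an end** (`l = atTop` or `atBot`, `A R` the part of the end at
depth `R`); no finiteness of the set of critical points is needed. -/
theorem end_lim_top [Nonempty C] {win : ℝ → ℝ} {near : ℝ → C → ℝ → Prop}
    (hw : ∀ ε > 0, ∀ᶠ s in atTop, win s < ε)
    (mono : ∀ s β η η', η ≤ η' → near s β η → near s β η')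
    (small : ∀ η > 0, ∃ ε > 0, ∀ᶠ s in atTop, win s < ε → ∃ β, near s β η)
    (iso : ∃ η > 0, ∀ᶠ s in atTop, ∀ β, near s β η →
      (∀ β', near s β' η → β = β') ∧ ∀ᶠ s' in 𝓝 s, near s' β η) :
    ∃ β, ∀ η > 0, ∀ᶠ s in atTop, near s β η := by
  have key : ∀ η > 0, ∀ᶠ s in atTop, ∃ β, near s β η := fun η hη => by
    obtain ⟨ε, hε, h⟩ := small η hη
    filter_upwards [h, hw ε hε] with s h1 h2 using h1 h2
  obtain ⟨η0, hη0, h0⟩ := iso
  obtain ⟨R, hR⟩ := eventually_atTop.1 (h0.and (key η0 hη0))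
  obtain ⟨β, hβ⟩ := one_of_cover (A := Ici R) isPreconnected_Ici (fun s β => near s β η0)
    (fun s hs => (hR s hs).2) (fun s hs β β' hb => ((hR s hs).1 β hb).1 β')
    fun s hs β hb => ((hR s hs).1 β hb).2
  refine ⟨β, fun η hη => ?_⟩
  filter_upwards [key _ (lt_min hη hη0), eventually_ge_atTop R] with s ⟨γ, hγ⟩ hs
  rw [((hR s hs).1 β (hβ s hs)).1 γ (mono _ _ _ _ (min_le_right _ _) hγ)]
  exact mono _ _ _ _ (min_le_left _ _) hγ

theorem end_lim_bot [Nonempty C] {win : ℝ → ℝ} {near : ℝ → C → ℝ → Prop}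
    (hw : ∀ ε > 0, ∀ᶠ s in atBot, win s < ε)
    (mono : ∀ s β η η', η ≤ η' → near s β η → near s β η')
    (small : ∀ η > 0, ∃ ε > 0, ∀ᶠ s in atBot, win s < ε → ∃ β, near s β η)
    (iso : ∃ η > 0, ∀ᶠ s in atBot, ∀ β, near s β η →
      (∀ β', near s β' η → β = β') ∧ ∀ᶠ s' in 𝓝 s, near s' β η) :
    ∃ β, ∀ η > 0, ∀ᶠ s in atBot, near s β η := by
  obtain ⟨η0, hη0, h0⟩ := iso
  obtain ⟨β, hβ⟩ := end_lim_top (win := fun s => win (-s)) (near := fun s => near (-s))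
    (fun ε hε => tendsto_neg_atTop_atBot.eventually (hw ε hε)) (fun s => mono (-s))
    (fun η hη => (small η hη).imp fun ε h => ⟨h.1, tendsto_neg_atTop_atBot.eventually h.2⟩)
    ⟨η0, hη0, (tendsto_neg_atTop_atBot.eventually h0).mono fun s hs β hb =>
      ⟨(hs β hb).1, continuous_neg.continuousAt.eventually (hs β hb).2⟩⟩
  exact ⟨β, fun η hη => by simpa using tendsto_neg_atBot_atTop.eventually (hβ η hη)⟩

/-- finite energy makes the window energy small at the ends -/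
theorem win_small_top {f : ℝ → ℝ} {a : ℝ} (hf : MeasureTheory.IntegrableOn f (Ioi a)) (r : ℝ) :
    Tendsto (fun s => ∫ x in (s - r)..(s + r), f x) atTop (𝓝 0) := by
  have h1 := MeasureTheory.intervalIntegral_tendsto_integral_Ioi a hf
    (tendsto_atTop_add_const_right atTop r tendsto_id)
  have h2 := MeasureTheory.intervalIntegral_tendsto_integral_Ioi a hf
    (tendsto_atTop_add_const_right atTop (-r) tendsto_id)
  have h3 := h1.sub h2
  rw [sub_self] at h3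
  refine h3.congr' ?_
  filter_upwards [eventually_ge_atTop (a + |r|)] with s hs
  have hi : ∀ u, a ≤ u → IntervalIntegrable f MeasureTheory.volume a u := fun u hu =>
    (intervalIntegrable_iff_integrableOn_Ioc_of_le hu).2 (hf.mono_set Ioc_subset_Ioi_self)
  simp only [id, ← sub_eq_add_neg]
  exact intervalIntegral.integral_interval_sub_left (hi _ (by linarith [neg_abs_le r]))
    (hi _ (by linarith [le_abs_self r]))

theorem win_small_bot {f : ℝ → ℝ} {a : ℝ} (hf : MeasureTheory.IntegrableOn f (Iic a)) (r : ℝ) :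
    Tendsto (fun s => ∫ x in (s - r)..(s + r), f x) atBot (𝓝 0) := by
  have h1 := MeasureTheory.intervalIntegral_tendsto_integral_Iic a hf
    (tendsto_atBot_add_const_right atBot r tendsto_id)
  have h2 := MeasureTheory.intervalIntegral_tendsto_integral_Iic a hf
    (tendsto_atBot_add_const_right atBot (-r) tendsto_id)
  have h3 := h2.sub h1
  rw [sub_self] at h3
  refine h3.congr' ?_
  filter_upwards [eventually_le_atBot (a - |r|)] with s hs
  have hi : ∀ u, u ≤ a → IntervalIntegrable f MeasureTheory.volume u a := fun u hu =>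
    (intervalIntegrable_iff_integrableOn_Ioc_of_le hu).2 (hf.mono_set Ioc_subset_Iic_self)
  simp only [id, ← sub_eq_add_neg]
  have e1 := hi (s - r) (by linarith [neg_abs_le r])
  have e2 := hi (s + r) (by linarith [le_abs_self r])
  rw [← intervalIntegral.integral_add_adjacent_intervals (e1.trans e2.symm) e2]
  ring

end Crest.Agent.X212.Brk64
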